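import Mathlib

open scoped ComplexConjugate InnerProductSpace

namespace Vale.Agent.Results.P355.RootsOfUnityObstruction

/-- Congruence of complex numbers modulo `p` times the algebraic integers. -/
private def Cg (p : ℕ) (x y : ℂ) : Prop := ∃ a : ℂ, IsIntegral ℤ a ∧ x = y + (p : ℂ) * a

private lemma cg_refl (p : ℕ) (x : ℂ) : Cg p x x := ⟨0, isIntegral_zero, by simp⟩

private lemma cg_symm {p : ℕ} {x y : ℂ} (h : Cg p x y) : Cg p y x := by
  obtain ⟨a, ha, e⟩ := h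
  exact ⟨-a, ha.neg, by rw [e]; ring⟩

private lemma cg_trans {p : ℕ} {x y z : ℂ} (h : Cg p x y) (h' : Cg p y z) : Cg p x z := by
  obtain ⟨a, ha, e⟩ := h
  obtain ⟨b, hb, e'⟩ := h'
  exact ⟨b + a, hb.add ha, by rw [e, e']; ring⟩

private lemma cg_add {p : ℕ} {x y x' y' : ℂ} (h : Cg p x y) (h' : Cg p x' y') :
    Cg p (x + x') (y + y') := by
  obtain ⟨a, ha, e⟩ := h
  obtain ⟨b, hb, e'⟩ := h'
  exact ⟨a + b, ha.add hb, by rw [e, e']; ring⟩

private lemma cg_mul {p : ℕ} {x y x' y' : ℂ} (h : Cg p x y) (h' : Cg p x' y')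
    (hy : IsIntegral ℤ y) (hy' : IsIntegral ℤ y') : Cg p (x * x') (y * y') := by
  obtain ⟨a, ha, e⟩ := h
  obtain ⟨b, hb, e'⟩ := h'
  have hp : IsIntegral ℤ (p : ℂ) := by
    simpa using (isIntegral_algebraMap (R := ℤ) (A := ℂ) (x := (p : ℤ)))
  exact ⟨y * b + a * y' + (p : ℂ) * a * b,
    ((hy.mul hb).add (ha.mul hy')).add ((hp.mul ha).mul hb), by rw [e, e']; ring⟩

private lemma integral_conj {x : ℂ} (h : IsIntegral ℤ x) : IsIntegral ℤ (conj x) :=
  map_isIntegral_int (starRingEnd ℂ) h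

private lemma cg_conj {p : ℕ} {x y : ℂ} (h : Cg p x y) : Cg p (conj x) (conj y) := by
  obtain ⟨a, ha, e⟩ := h
  exact ⟨conj a, integral_conj ha, by rw [e]; simp⟩

private lemma root_integral {w : ℂ} {m : ℕ} (hm : 0 < m) (h : w ^ m = 1) : IsIntegral ℤ w :=
  IsIntegral.of_pow hm (by rw [h]; exact isIntegral_one)

private lemma cg_sum {p : ℕ} {ι : Type} (s : Finset ι) (f g : ι → ℂ)
    (h : ∀ i ∈ s, Cg p (f i) (g i)) : Cg p (∑ i ∈ s, f i) (∑ i ∈ s, g i) := by
  classical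
  induction s using Finset.induction_on with
  | empty => simpa using cg_refl p 0
  | insert b t hb ih =>
    rw [Finset.sum_insert hb, Finset.sum_insert hb]
    exact cg_add (h b (Finset.mem_insert_self b t))
      (ih fun i hi => h i (Finset.mem_insert_of_mem hi))

private lemma cg_frobenius {p : ℕ} (hp : p.Prime) (k : ℕ) {ι : Type} (s : Finset ι)
    (f : ι → ℂ) (hf : ∀ i, IsIntegral ℤ (f i)) :
    Cg p ((∑ i ∈ s, f i) ^ p ^ k) (∑ i ∈ s, f i ^ p ^ k) := by
  classical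
  induction s using Finset.induction_on with
  | empty =>
    have : p ^ k ≠ 0 := pow_ne_zero _ hp.pos.ne'
    simpa [zero_pow this] using cg_refl p 0
  | insert b t hb ih =>
    rw [Finset.sum_insert hb, Finset.sum_insert hb]
    let R := integralClosure ℤ ℂ
    obtain ⟨r, hr⟩ := exists_add_pow_prime_pow_eq (R := R) hp ⟨f b, hf b⟩
      ⟨∑ i ∈ t, f i, IsIntegral.sum _ fun i _ => hf i⟩ k
    have hr' : (f b + ∑ i ∈ t, f i) ^ p ^ k = f b ^ p ^ k + (∑ i ∈ t, f i) ^ p ^ k +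
        (p : ℂ) * f b * (∑ i ∈ t, f i) * (r : ℂ) := by
      simpa using congrArg (Subtype.val) hr
    have h1 : Cg p ((f b + ∑ i ∈ t, f i) ^ p ^ k)
        (f b ^ p ^ k + (∑ i ∈ t, f i) ^ p ^ k) :=
      ⟨f b * (∑ i ∈ t, f i) * (r : ℂ),
        ((hf b).mul (IsIntegral.sum _ fun i _ => hf i)).mul r.2, by rw [hr']; ring⟩
    exact cg_trans h1 (cg_add (cg_refl _ _) ih)

/-- Six terms congruent to `m`-th roots of unity, `m ∣ p ^ j + 1`, never sum to modulus `√6`. -/
private lemma no_sum {p m j : ℕ} (hp : p = 2 ∨ p = 3) (hj : 0 < j) (hm : m ∣ p ^ j + 1)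
    (r w : Fin 6 → ℂ) (hw : ∀ i, w i ^ m = 1) (hrw : ∀ i, Cg p (r i) (w i)) :
    (∑ i, r i) * conj (∑ i, r i) ≠ 6 := by
  intro h6
  have hm0 : 0 < m := by
    rcases Nat.eq_zero_or_pos m with h | h
    · subst h; simp at hm
    · exact h
  have hp' : p.Prime := by
    rcases hp with rfl | rfl
    · exact Nat.prime_two
    · exact Nat.prime_three
  set S := ∑ i, r i with hS
  set T := ∑ i, w i with hT
  have wint : ∀ i, IsIntegral ℤ (w i) := fun i => root_integral hm0 (hw i)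
  have Tint : IsIntegral ℤ T := IsIntegral.sum _ fun i _ => wint i
  have hST : Cg p S T := cg_sum _ _ _ fun i _ => hrw i
  have winv : ∀ i, w i ^ p ^ j * w i = 1 := by
    intro i
    obtain ⟨c, hc⟩ := hm
    rw [← pow_succ, hc, pow_mul, hw i, one_pow]
  have wconj : ∀ i, w i ^ p ^ j = conj (w i) := by
    intro i
    have n1 : ‖w i‖ = 1 := Complex.norm_eq_one_of_pow_eq_one (hw i) hm0.ne'
    have e : conj (w i) * w i = 1 := by
      rw [mul_comm, Complex.mul_conj']; simp [n1]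
    have hw0 : w i ≠ 0 := by intro hz; simp [hz] at n1
    exact mul_right_cancel₀ hw0 ((winv i).trans e.symm)
  have hTc : Cg p (T ^ p ^ j) (conj T) := by
    have := cg_frobenius hp' j Finset.univ w wint
    simpa [hT, wconj, map_sum] using this
  have hTT : Cg p (T ^ p ^ (j + j)) T := by
    have := cg_frobenius hp' (j + j) Finset.univ w wint
    have e : ∀ i, w i ^ p ^ (j + j) = w i := by
      intro i
      rw [pow_add, pow_mul, wconj i, ← map_pow, wconj i]
      simp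
    simpa [hT, e] using this
  have h6T : Cg p (6 : ℂ) (T * conj T) := by
    rw [← h6]
    exact cg_mul hST (cg_conj hST) Tint (integral_conj Tint)
  have h60 : Cg p (6 : ℂ) 0 := by
    rcases hp with rfl | rfl
    · exact ⟨3, by simpa using isIntegral_algebraMap (R := ℤ) (A := ℂ) (x := (3 : ℤ)), by norm_num⟩
    · exact ⟨2, by simpa using isIntegral_algebraMap (R := ℤ) (A := ℂ) (x := (2 : ℤ)), by norm_num⟩
  have hpow0 : Cg p (T ^ (p ^ j + 1)) 0 := by
    refine cg_trans ?_ (cg_trans (cg_symm h6T) h60)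
    rw [pow_succ, mul_comm T (conj T)]
    exact cg_mul hTc (cg_refl _ _) (integral_conj Tint) Tint
  have hle : p ^ j + 1 ≤ p ^ (j + j) := Nat.pow_lt_pow_right hp'.one_lt (by omega)
  have hT0 : Cg p T 0 := by
    refine cg_trans (cg_symm hTT) ?_
    obtain ⟨d, hd⟩ := Nat.le.dest hle
    have := cg_mul hpow0 (cg_refl p (T ^ d)) isIntegral_zero (Tint.pow d)
    rw [← hd, pow_add]
    simpa using this
  obtain ⟨a, ha, hSa⟩ := cg_trans hST hT0
  have hp0 : (p : ℚ) ≠ 0 := by exact_mod_cast hp'.ne_zero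
  have hpC : (p : ℂ) ≠ 0 := by exact_mod_cast hp'.ne_zero
  have hval : a * conj a = algebraMap ℚ ℂ (6 / (p : ℚ) ^ 2) := by
    rw [hSa] at h6
    simp at h6
    simp only [eq_ratCast, Rat.cast_div, Rat.cast_ofNat, Rat.cast_pow, Rat.cast_natCast]
    field_simp
    linear_combination h6
  have hint : IsIntegral ℤ (6 / (p : ℚ) ^ 2) := by
    rw [← isIntegral_algebraMap_iff (B := ℂ) (algebraMap ℚ ℂ).injective, ← hval]
    exact ha.mul (integral_conj ha)
  obtain ⟨z, hz⟩ := IsIntegrallyClosed.isIntegral_iff.mp hint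
  rw [eq_intCast, eq_div_iff (pow_ne_zero 2 hp0)] at hz
  have hz' : z * (p : ℤ) ^ 2 = 6 := by exact_mod_cast hz
  rcases hp with rfl | rfl <;> norm_num at hz' <;> omega

/-- If `4` does not divide `q` and `-1` is a power of `2` modulo the odd part of `q`, or if `3` does
not divide `q` and `-1` is a power of `3` modulo `q`, then in a family of mutually unbiased bases
of `ℂ⁶` at most one basis contains a vector that is a multiple of a vector of `q`-th roots of
unity. -/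
theorem result (q : ℕ)
    (hq : (∃ m j : ℕ, Odd m ∧ (q = m ∨ q = 2 * m) ∧ m ∣ 2 ^ j + 1) ∨
      (¬ 3 ∣ q ∧ ∃ j : ℕ, q ∣ 3 ^ j + 1))
    {ι : Type*} (B : ι → OrthonormalBasis (Fin 6) ℂ (EuclideanSpace ℂ (Fin 6)))
    (hB : ∀ s t : ι, s ≠ t → ∀ a b, ‖⟪B s a, B t b⟫_ℂ‖ ^ 2 = 1 / 6)
    (s t : ι)
    (hs : ∃ (a : Fin 6) (c : ℂ), ∀ i, (c * (B s a) i) ^ q = 1)
    (ht : ∃ (b : Fin 6) (d : ℂ), ∀ i, (d * (B t b) i) ^ q = 1) : s = t := by
  by_contra hne
  obtain ⟨a, c, hc⟩ := hs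
  obtain ⟨b, d, hd⟩ := ht
  have hq0 : q ≠ 0 := by
    rcases hq with ⟨m, j, hm, hqm, -⟩ | ⟨h3, -⟩
    · have := hm.pos
      omega
    · rintro rfl
      exact h3 (dvd_zero 3)
  have key : ∀ (v : EuclideanSpace ℂ (Fin 6)) (e : ℂ), ‖v‖ = 1 →
      (∀ i, (e * v i) ^ q = 1) → ‖e‖ ^ 2 = 6 := by
    intro v e hv he
    have h1 : ∀ i, ‖e‖ ^ 2 * ‖v i‖ ^ 2 = 1 := by
      intro i
      rw [← mul_pow, ← norm_mul, Complex.norm_eq_one_of_pow_eq_one (he i) hq0, one_pow]
    have h2 : ∑ i, ‖v i‖ ^ 2 = 1 := by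
      rw [← EuclideanSpace.norm_sq_eq, hv, one_pow]
    have h3 : ‖e‖ ^ 2 * ∑ i, ‖v i‖ ^ 2 = 6 := by
      rw [Finset.mul_sum, Finset.sum_congr rfl fun i _ => h1 i]
      simp
    rwa [h2, mul_one] at h3
  let r : Fin 6 → ℂ := fun i => conj (c * (B s a) i) * (d * (B t b) i)
  have hr : ∀ i, r i ^ q = 1 := by
    intro i
    simp only [r]
    rw [mul_pow, ← map_pow, hc i, hd i]
    simp
  have hsum : ∑ i, r i = conj c * d * ⟪B s a, B t b⟫_ℂ := by
    rw [PiLp.inner_apply, Finset.mul_sum]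
    refine Finset.sum_congr rfl fun i _ => ?_
    simp [r]
    ring
  have h6 : (∑ i, r i) * conj (∑ i, r i) = 6 := by
    rw [Complex.mul_conj', hsum, norm_mul, norm_mul, Complex.norm_conj]
    have hn : (‖c‖ * ‖d‖ * ‖⟪B s a, B t b⟫_ℂ‖) ^ 2 = 6 := by
      rw [mul_pow, mul_pow, key _ c ((B s).orthonormal.1 a) hc,
        key _ d ((B t).orthonormal.1 b) hd, hB s t hne a b]
      norm_num
    exact_mod_cast hn
  rcases hq with ⟨m, j, hodd, hqm, hdvd⟩ | ⟨h3, j, hdvd⟩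
  · have hj : ∃ k, 0 < k ∧ m ∣ 2 ^ k + 1 := by
      rcases Nat.eq_zero_or_pos j with rfl | hjp
      · have hle := Nat.le_of_dvd two_pos (by simpa using hdvd)
        have hm1 : m = 1 := by rcases hodd with ⟨l, hl⟩; omega
        exact ⟨1, one_pos, by simp [hm1]⟩
      · exact ⟨j, hjp, hdvd⟩
    obtain ⟨k, hk, hkd⟩ := hj
    have hw : ∀ i, ∃ w : ℂ, w ^ m = 1 ∧ Cg 2 (r i) w := by
      intro i
      rcases hqm with e | e
      · exact ⟨r i, by rw [← e]; exact hr i, cg_refl _ _⟩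
      · have h2 : (r i ^ m) ^ 2 = 1 := by rw [← pow_mul, mul_comm, ← e]; exact hr i
        rcases sq_eq_one_iff.mp h2 with h | h
        · exact ⟨r i, h, cg_refl _ _⟩
        · refine ⟨-r i, by rw [hodd.neg_pow, h, neg_neg], r i,
            root_integral (Nat.pos_of_ne_zero hq0) (hr i), by push_cast; ring⟩
    choose w hw1 hw2 using hw
    exact no_sum (Or.inl rfl) hk hkd r w hw1 hw2 h6
  · have hj : ∃ k, 0 < k ∧ q ∣ 3 ^ k + 1 := by
      rcases Nat.eq_zero_or_pos j with rfl | hjp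
      · exact ⟨1, one_pos, dvd_trans (by simpa using hdvd) (by norm_num)⟩
      · exact ⟨j, hjp, hdvd⟩
    obtain ⟨k, hk, hkd⟩ := hj
    exact no_sum (Or.inr rfl) hk hkd r r hr (fun i => cg_refl _ _) h6

end Vale.Agent.Results.P355.RootsOfUnityObstruction
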